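import Vale.Agent.P046.Full.Main
import Vale.Agent.P046.Full.Cycles
import Vale.Agent.P046.Full.Equiv
import Vale.Agent.P046.Full.FixMain
import Vale.Agent.P046.Full.QMain
import Vale.Agent.P046.Full.PhaseA
import Vale.Agent.P046.Full.Estimates

open Finset Filter
open scoped Topology

namespace Vale.Agent.Results.P046.RemovalConstant

open Vale.Agent.P046.Full

/-- The number of edges left by random triangle removal. -/
theorem result :
    (∀ δ > (0 : ℝ), Tendsto (fun n : ℕ => leaveObs (triangles n)
        (fun F => if δ < |(F : ℝ) / (n : ℝ) ^ (3 / 2 : ℝ) - 1 / (2 * Real.sqrt 2)| then 1 else 0)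
        Finset.univ) atTop (𝓝 0)) ∧
      Tendsto (fun n : ℕ => leaveObs (triangles n)
        (fun F => (F : ℝ) / (n : ℝ) ^ (3 / 2 : ℝ)) Finset.univ) atTop (𝓝 (1 / (2 * Real.sqrt 2))) :=
  main_of (phaseA estimate_stmt) cycle_stmt equiv_stmt fix_stmt query_stmt

end Vale.Agent.Results.P046.RemovalConstant
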