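import Mathlib
import Vale.Agent.P046.TriGraph
import Vale.Agent.P046.Uniform

/-!
# P046: the random greedy packing leaves `O(N / √d)` points, hence `O(n ^ (3/2))` edges for `K_n`
-/

open Finset

namespace Vale.Agent.Results.P046.UniformUpperBound

open Vale.Agent.P046

theorem result : ∃ C : ℝ,
    (∀ (V : Type) [Fintype V] [DecidableEq V] (H : Finset (Finset V)) (d : ℕ), 1 ≤ d →
      (∀ T ∈ H, T.card = 3) → (∀ T ∈ H, ∀ T' ∈ H, T ≠ T' → (T ∩ T').card ≤ 1) →
      (∀ f : V, (H.filter (fun T => f ∈ T)).card = d) →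
        leave H Finset.univ ≤ C * (Fintype.card V : ℝ) / Real.sqrt d) ∧
    (∀ n : ℕ, leave (triSys n) Finset.univ ≤ C * (n : ℝ) ^ ((3 : ℝ) / 2)) := by
  obtain ⟨C0, hC0⟩ := uniform_upper.{0}
  set C := max C0 1 with hC
  have hC1 : 1 ≤ C := le_max_right _ _
  have main : ∀ (V : Type) [Fintype V] [DecidableEq V] (H : Finset (Finset V)) (d : ℕ), 1 ≤ d →
      Linear H → (∀ f : V, deg H Finset.univ f = d) →
        leave H Finset.univ ≤ C * (Fintype.card V : ℝ) / Real.sqrt d := by
    intro V _ _ H d hd hH hreg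
    refine (hC0 V H d hd hH hreg).trans ?_
    gcongr
    exact le_max_left _ _
  refine ⟨C, ?_, ?_⟩
  · intro V _ _ H d hd h3 hlin hreg
    refine main V H d hd ⟨h3, hlin⟩ fun f => ?_
    have e : star H Finset.univ f = H.filter (fun T => f ∈ T) := by
      ext T; simp [mem_star]
    rw [deg, e, hreg f]
  · intro n
    rcases Nat.lt_or_ge n 3 with hn | hn
    · refine (leaveFuel_le_card _ _ _).trans ?_
      rw [Finset.card_univ, card_edge_eq]
      have hC0' : 0 ≤ C := by linarith
      interval_cases n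
      · norm_num
      · norm_num; linarith
      · norm_num
        nlinarith [Real.one_le_rpow (show (1:ℝ) ≤ 2 by norm_num) (show (0:ℝ) ≤ 3 / 2 by norm_num)]
    · have h := main (Side n) (triSys n) (n - 2) (by omega) triSys_linear fun f => by
        rw [deg_univ, Nat.cast_sub (by omega)]; norm_num
      refine h.trans ?_
      rw [card_edge_eq, Nat.cast_choose_two, Nat.cast_sub (by omega : 2 ≤ n), Nat.cast_ofNat]
      have hn3 : (3 : ℝ) ≤ n := by exact_mod_cast hn
      have hn0 : (0 : ℝ) ≤ n := by linarith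
      have hs : 0 < Real.sqrt ((n : ℝ) - 2) := Real.sqrt_pos.2 (by linarith)
      have hp : (n : ℝ) ^ ((3 : ℝ) / 2) = n * Real.sqrt n := by
        rw [Real.sqrt_eq_rpow, ← Real.rpow_one_add' hn0 (by norm_num)]
        norm_num
      rw [hp, div_le_iff₀ hs, mul_assoc, mul_assoc]
      refine mul_le_mul_of_nonneg_left ?_ (by linarith)
      have h2 : ((n : ℝ) - 1) / 2 ≤ Real.sqrt n * Real.sqrt ((n : ℝ) - 2) := by
        rw [← Real.sqrt_mul hn0]
        refine Real.le_sqrt_of_sq_le ?_
        nlinarith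
      calc (n : ℝ) * ((n : ℝ) - 1) / 2 = n * (((n : ℝ) - 1) / 2) := by ring
        _ ≤ _ := mul_le_mul_of_nonneg_left h2 hn0

end Vale.Agent.Results.P046.UniformUpperBound
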